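import Vale.Agent.P129BD.Mom
import Vale.Agent.P129BZ.Cls

/-!
# Rademacher averages of sign functionals
-/

namespace Vale.Agent.P129B

universe v

variable {N : Type v} [ZM N]
variable {R : Type*} [Field R] [LinearOrder R] [IsStrictOrderedRing R] [Coded N R] [RF N R]
  {K : Type*} [Field K] [Algebra R K] [Nm K R] [KA R K] [Coded N K] [KF N R K]

omit [Coded N R] [RF N R] [Coded N K] [KF N R K] in
theorem Rad.re_mul (r : R) (z : K) : KA.re (algebraMap R K r * z) = r * KA.re z := by
  rw [← Algebra.smul_def, map_smul, smul_eq_mul]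

omit [Coded N R] [RF N R] [Coded N K] [KF N R K] in
theorem Rad.im_mul (r : R) (z : K) : KA.im (algebraMap R K r * z) = r * KA.im z := by
  rw [← Algebra.smul_def, map_smul, smul_eq_mul]

omit [Coded N R] [RF N R] [Coded N K] [KF N R K] in
theorem Rad.parts_le {z : K} {r c : R} (h : nm (z - algebraMap R K r) ≤ c) :
    |KA.re z - r| ≤ c ∧ |KA.im z| ≤ c := by
  have h1 := KA.nm_sq (z - algebraMap R K r)
  have h2 := KA.nm_nonneg' (z - algebraMap R K r)
  have e1 := Rad.re_mul (K := K) r 1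
  have e2 := Rad.im_mul (K := K) r 1
  rw [mul_one, KA.re_one, mul_one] at e1
  rw [mul_one, KA.im_one, mul_zero] at e2
  rw [map_sub, map_sub, e1, e2, sub_zero] at h1
  have h3 := pow_le_pow_left₀ h2 h 2
  have h4 := sq_nonneg (KA.re z - r)
  have h5 := sq_nonneg (KA.im z)
  exact ⟨abs_le_of_sq_le_sq' (by linarith) (h2.trans h) |> abs_le.2,
    abs_le_of_sq_le_sq' (by linarith) (h2.trans h) |> abs_le.2⟩

/-- The finite stage of the construction of functionals equivalent to an orthonormal sequence,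
for an abstract module `Φ` of functionals with evaluation `ev`. -/
theorem signs_core {Φ E : Type*} [AddCommGroup Φ] [Module K Φ] [Coded N Φ] [Tot N Φ] [DefAdd N Φ]
    [DefSMul N K Φ] [Coded N E] [Tot N E] (ev : Φ → E → K)
    (hev : DefF N (fun p : Φ × E => ev p.1 p.2))
    (ev_add : ∀ u v y, ev (u + v) y = ev u y + ev v y)
    (ev_smul : ∀ (c : K) u y, ev (c • u) y = c * ev u y) {s : E → R} (hs : DefF N s)
    {δ : R} (hδ : 0 < δ) {x : NN N → E} (hx : DefF N x) {q : NN N → NN N → R}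
    (hq : DefF N (fun p : NN N × NN N => q p.1 p.2)) (n : NN N)
    (h : ∀ ε : NN N → R, Intl N ε → (∀ i, ε i = 1 ∨ ε i = -1) → ∃ ψ : Φ,
      (∀ y, nm (ev ψ y) ≤ s y) ∧ ∀ i, i < n → nm (ev ψ (x i) - algebraMap R K (δ * ε i)) ≤ δ / 16) :
    ∃ f : NN N → Φ, Intl N f ∧ (∀ k, n ≤ k → f k = 0) ∧
      (∀ y, isum (fun k => nm (ev (f k) y) ^ 2) n ≤ s y ^ 2) ∧ ∀ i, i < n →
        0 ≤ isum (fun k => q i k * KA.re (ev (f k) (x i))) n ∧
        (1 / 2 * δ) ^ 2 * isum (fun k => q i k ^ 2) n ≤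
          isum (fun k => q i k * KA.re (ev (f k) (x i))) n ^ 2 ∧
        isum (fun k => KA.im (ev (f k) (x i)) ^ 2) n ≤ (δ / 16) ^ 2 := by
  classical
  have hnm : DefF N (fun z : K => nm z) := by
    refine defF_of_rel (R := fun (z : K) (r : R) => 0 ≤ r ∧ r ^ 2 = KA.re z ^ 2 + KA.im z ^ 2)
      (fun _ _ => inferInstance) (by fun_prop) fun z r _ _ => ⟨fun h => ?_, ?_⟩
    · exact (pow_left_inj₀ (KA.nm_nonneg' z) h.1 two_ne_zero).1 ((KA.nm_sq z).trans h.2.symm)
    · rintro rfl
      exact ⟨KA.nm_nonneg' z, KA.nm_sq z⟩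
  have : DefNm N R K := ⟨hnm⟩
  let ε : NN N → NN N → R := fun w i => if 0 ≤ rs (q i) n w then 1 else -1
  have hε : DefF N (fun p : NN N × NN N => ε p.1 p.2) := by simp only [ε]; fun_prop
  have hε1 : ∀ w i, ε w i = 1 ∨ ε w i = -1 := fun w i => by
    simp only [ε]; split_ifs <;> simp
  have hε2 : ∀ w i, rs (q i) n w * ε w i = |rs (q i) n w| := fun w i => by
    simp only [ε]
    split_ifs with h0
    · rw [mul_one, abs_of_nonneg h0]
    · rw [abs_of_neg (not_le.1 h0), mul_neg, mul_one]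
  obtain ⟨ψ, hψ, hψ'⟩ := exists_intl_choiceT (N := N) (R := fun (w : NN N) (ψ : Φ) =>
      (∀ y, nm (ev ψ y) ≤ s y) ∧
        ∀ i, i < n → nm (ev ψ (x i) - algebraMap R K (δ * ε w i)) ≤ δ / 16) (by fun_prop)
    fun w => h (ε w) (DefF.toIntl (by fun_prop)) (hε1 w)
  let g : NN N → Φ := fun k => algebraMap R K (ipow (2 : R) n)⁻¹ •
    isum (fun w => algebraMap R K (sgn R w k) • ψ w) (pw n)
  have hg : DefF N g := by simp only [g]; fun_prop
  have ev0 : ∀ y, ev 0 y = 0 := fun y => by
    have := ev_smul 0 0 y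
    rwa [zero_smul, zero_mul] at this
  have hgy : ∀ k y, ev (g k) y = algebraMap R K (ipow (2 : R) n)⁻¹ *
      isum (fun w => algebraMap R K (sgn R w k) * ev (ψ w) y) (pw n) := fun k y => by
    simp only [g]
    rw [ev_smul, map_isum' (φ := fun u => ev u y) (by fun_prop) (ev0 y) (fun u v => ev_add u v y)
      (by fun_prop)]
    simp only [ev_smul]
  have hre : ∀ k y, KA.re (ev (g k) y) = av n (fun w => sgn R w k * KA.re (ev (ψ w) y)) :=
    fun k y => by
      rw [hgy, Rad.re_mul, map_isum (KA.re : K →ₗ[R] R) (by fun_prop) (by fun_prop)]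
      simp only [Rad.re_mul, av]
  have him : ∀ k y, KA.im (ev (g k) y) = av n (fun w => sgn R w k * KA.im (ev (ψ w) y)) :=
    fun k y => by
      rw [hgy, Rad.im_mul, map_isum (KA.im : K →ₗ[R] R) (by fun_prop) (by fun_prop)]
      simp only [Rad.im_mul, av]
  refine ⟨fun k => if k < n then g k else 0, DefF.toIntl (by fun_prop),
    fun k hk => if_neg (not_lt.2 hk), fun y => ?_, fun i hi => ?_⟩
  · rw [isum_congr (g := fun k => av n (fun w => sgn R w k * KA.re (ev (ψ w) y)) ^ 2 +
      av n (fun w => sgn R w k * KA.im (ev (ψ w) y)) ^ 2) (by fun_prop) (by fun_prop)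
      (fun k hk => by beta_reduce; rw [if_pos hk, KA.nm_sq, hre, him]), isum_add (by fun_prop) (by fun_prop)]
    refine (add_le_add (bessel (by fun_prop) n) (bessel (by fun_prop) n)).trans ?_
    rw [← av_add (by fun_prop) (by fun_prop)]
    refine av_le (by fun_prop) fun w _ => ?_
    rw [← KA.nm_sq]
    exact pow_le_pow_left₀ (KA.nm_nonneg' _) ((hψ' w).1 y) 2
  · have hp := fun w => Rad.parts_le ((hψ' w).2 i hi)
    have e1 : isum (fun k => q i k * KA.re (ev (if k < n then g k else 0) (x i))) n =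
        av n (fun w => rs (q i) n w * KA.re (ev (ψ w) (x i))) := by
      rw [av_rs_mul (by fun_prop) (by fun_prop)]
      exact isum_congr (by fun_prop) (by fun_prop) fun k hk => by rw [if_pos hk, hre]
    have h1 : 15 / 16 * δ * av n (fun w => |rs (q i) n w|) ≤
        av n (fun w => rs (q i) n w * KA.re (ev (ψ w) (x i))) := by
      rw [← av_mul _ (by fun_prop)]
      refine av_le_av (by fun_prop) (by fun_prop) fun w _ => ?_
      have h2 := neg_abs_le (rs (q i) n w * (KA.re (ev (ψ w) (x i)) - δ * ε w i))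
      rw [abs_mul] at h2
      have h3 := mul_le_mul_of_nonneg_left (hp w).1 (abs_nonneg (rs (q i) n w))
      have h4 := hε2 w i
      have h5 : rs (q i) n w * (KA.re (ev (ψ w) (x i)) - δ * ε w i) =
          rs (q i) n w * KA.re (ev (ψ w) (x i)) - δ * |rs (q i) n w| := by rw [← h4]; ring
      linarith
    have h2 : 0 ≤ av n (fun w => |rs (q i) n w|) := av_nonneg (by fun_prop) fun w _ => abs_nonneg _
    have h3 := khinchine (b := q i) (by fun_prop) n
    have h4 : 0 ≤ 15 / 16 * δ * av n (fun w => |rs (q i) n w|) := by positivity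
    rw [e1]
    refine ⟨h4.trans h1, le_trans ?_ (pow_le_pow_left₀ h4 h1 2), ?_⟩
    · have h5 := mul_le_mul_of_nonneg_left h3 (sq_nonneg (1 / 2 * δ))
      have h6 : 0 ≤ δ ^ 2 * av n (fun w => |rs (q i) n w|) ^ 2 := by positivity
      nlinarith
    · rw [isum_congr (g := fun k => av n (fun w => sgn R w k * KA.im (ev (ψ w) (x i))) ^ 2)
        (by fun_prop) (by fun_prop) (fun k hk => by beta_reduce; rw [if_pos hk, him])]
      refine (bessel (by fun_prop) n).trans (av_le (by fun_prop) fun w _ => ?_)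
      rw [← sq_abs]
      exact pow_le_pow_left₀ (abs_nonneg _) (hp w).2 2

end Vale.Agent.P129B
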