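import Vale.Agent.P129B.Choice

/-!
# Binary digits of the natural numbers of a model; sign patterns
-/

namespace Vale.Agent.P129B

universe v

variable {N : Type v} [ZM N]
variable {α : Type*} [Coded N α]

/-- `2 ^ n` -/
noncomputable def pw (n : NN N) : NN N := irec 1 (fun _ b => b + b) n

@[fun_prop] theorem DefF.pw {f : α → NN N} (hf : DefF N f) : DefF N (fun a => pw (f a)) := by
  unfold P129B.pw
  fun_prop

@[simp] theorem pw_zero : pw (0 : NN N) = 1 := irec_zero _ _

theorem pw_succ (n : NN N) : pw (n + 1) = pw n + pw n := irec_succ (by fun_prop) n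

theorem pw_pos (n : NN N) : 0 < pw n :=
  NN.ind (P := fun n => 0 < pw n) (by fun_prop) (by simp)
    (fun n ih => by rw [pw_succ]; exact add_pos ih ih) n

theorem pw_add (m n : NN N) : pw (m + n) = pw m * pw n :=
  NN.ind (P := fun n => pw (m + n) = pw m * pw n) (by fun_prop) (by simp)
    (fun n ih => by rw [← add_assoc, pw_succ, pw_succ, ih, mul_add]) n

theorem lt_pw (n : NN N) : n < pw n :=
  NN.ind (P := fun n => n < pw n) (by fun_prop) (by simp)
    (fun n ih => by
      rw [pw_succ]
      exact add_lt_add_of_lt_of_le ih (by simpa using NN.add_one_le_iff.2 (pw_pos n))) n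

/-- the binary digit number `k` of `w` is `1` -/
def Bit (w k : NN N) : Prop := ∃ a b : NN N, b < pw k ∧ w = pw k * (a + a + 1) + b

@[fun_prop] theorem DefF.bit {f g : α → NN N} (hf : DefF N f) (hg : DefF N g) :
    DefF N (fun a => Bit (f a) (g a)) := by
  unfold Bit
  fun_prop

theorem not_bit_of_lt {w n : NN N} (h : w < pw n) : ¬ Bit w n := by
  rintro ⟨a, b, -, rfl⟩
  refine absurd h (not_lt.2 ?_)
  rw [mul_add, mul_one]
  exact le_add_self.trans le_self_add

theorem bit_pw_add {w n : NN N} (h : w < pw n) : Bit (pw n + w) n :=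
  ⟨0, w, h, by simp⟩

theorem bit_pw_add_iff {k n : NN N} (h : k < n) (w : NN N) : Bit (pw n + w) k ↔ Bit w k := by
  obtain ⟨d, rfl⟩ := exists_add_of_le (NN.add_one_le_iff.2 h)
  rw [pw_add, pw_succ]
  generalize pw d = c
  have hp := pw_pos k
  constructor
  · rintro ⟨a, b, hb, e⟩
    rcases le_or_gt c a with h1 | h1
    · obtain ⟨a', rfl⟩ := exists_add_of_le h1
      refine ⟨a', b, hb, add_left_cancel (a := (pw k + pw k) * c) ?_⟩
      rw [e]; ring
    · exfalso
      obtain ⟨c', rfl⟩ := exists_add_of_le (NN.add_one_le_iff.2 h1)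
      have h2 : pw k * (a + a + 1) + b < pw k * (a + a + 1) + pw k := by gcongr
      rw [← e] at h2
      refine absurd h2 (not_lt.2 ?_)
      have : (pw k + pw k) * (a + 1 + c') + w =
          pw k * (a + a + 1) + pw k + ((pw k + pw k) * c' + w) := by ring
      rw [this]
      exact le_self_add
  · rintro ⟨a, b, hb, rfl⟩
    exact ⟨a + c, b, hb, by ring⟩

/-- Every definable pattern of length `n` is the pattern of digits of some `w < 2 ^ n`. -/
theorem exists_bit {P : NN N → Prop} (hP : DefF N P) (n : NN N) :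
    ∃ w, w < pw n ∧ ∀ k, k < n → (Bit w k ↔ P k) := by
  refine NN.ind (P := fun n => ∃ w, w < pw n ∧ ∀ k, k < n → (Bit w k ↔ P k)) (by fun_prop)
    ⟨0, pw_pos 0, fun k hk => absurd hk (NN.not_lt_zero' k)⟩ ?_ n
  rintro n ⟨w, hw, h⟩
  rw [pw_succ]
  by_cases hn : P n
  · refine ⟨pw n + w, by gcongr, fun k hk => ?_⟩
    rcases NN.lt_add_one_cases hk with hk | rfl
    · rw [bit_pw_add_iff hk, h k hk]
    · exact iff_of_true (bit_pw_add hw) hn
  · refine ⟨w, hw.trans_le le_self_add, fun k hk => ?_⟩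
    rcases NN.lt_add_one_cases hk with hk | rfl
    · exact h k hk
    · exact iff_of_false (not_bit_of_lt hw) hn

section Sgn

variable (R : Type*) [Ring R]

open Classical in
/-- the sign number `k` of the pattern `w` -/
noncomputable def sgn (w k : NN N) : R := if Bit w k then -1 else 1

variable {R}

@[fun_prop] theorem DefF.sgn [Coded N R] [Tot N R] {f g : α → NN N} (hf : DefF N f)
    (hg : DefF N g) : DefF N (fun a => sgn R (f a) (g a)) := by
  unfold P129B.sgn
  fun_prop

theorem sgn_cases (w k : NN N) : sgn R w k = 1 ∨ sgn R w k = -1 := by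
  unfold sgn
  split_ifs
  exacts [Or.inr rfl, Or.inl rfl]

theorem sgn_mul_self (w k : NN N) : sgn R w k * sgn R w k = 1 := by
  rcases sgn_cases (R := R) w k with h | h <;> rw [h] <;> simp

theorem sgn_of_lt {w n : NN N} (h : w < pw n) : sgn R w n = 1 := if_neg (not_bit_of_lt h)

theorem sgn_pw_add {w n : NN N} (h : w < pw n) : sgn R (pw n + w) n = -1 := if_pos (bit_pw_add h)

theorem sgn_pw_add_of_lt {k n : NN N} (h : k < n) (w : NN N) : sgn R (pw n + w) k = sgn R w k := by
  unfold sgn
  rw [bit_pw_add_iff h]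

/-- Every definable sign pattern of length `n` is `sgn w` for some `w < 2 ^ n`. -/
theorem exists_sgn [Coded N R] [Tot N R] {ε : NN N → R} (hε : DefF N ε)
    (h : ∀ i, ε i = 1 ∨ ε i = -1) (n : NN N) : ∃ w, w < pw n ∧ ∀ k, k < n → sgn R w k = ε k := by
  obtain ⟨w, hw, H⟩ := exists_bit (P := fun k => ¬ ε k = 1) (by fun_prop) n
  refine ⟨w, hw, fun k hk => ?_⟩
  unfold sgn
  rw [H k hk]
  by_cases h1 : ε k = 1
  · rw [if_neg (not_not.2 h1), h1]
  · rw [if_pos h1, (h k).resolve_left h1]

end Sgn

end Vale.Agent.P129B
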