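import Vale.Agent.P129BD.Core
import Vale.Agent.P129BZ.Dual

/-!
# Rademacher averages of sign functionals in the dual space
-/

namespace Vale.Agent.P129B

universe v

variable {N : Type v} [ZM N]
  {R : Type*} [Field R] [LinearOrder R] [IsStrictOrderedRing R] [Coded N R] [RF N R]
  {K : Type*} [Field K] [Algebra R K] [Nm K R] [KA R K] [Coded N K] [KF N R K]
  {E : Type*} [AddCommGroup E] [Module K E] [Nm E R] [NA R K E] [Coded N E] [NS N R K E]

/-- The finite stage of the construction of functionals equivalent to an orthonormal sequence;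
any constant `c ≤ 1 / 2` is possible. -/
theorem signs_dual {c : R} (hc0 : 0 ≤ c) (hc : c ≤ 1 / 2) {δ : R} (hδ : 0 < δ) {x : NN N → E}
    (hx : DefF N x) {q : NN N → NN N → R} (hq : DefF N (fun p : NN N × NN N => q p.1 p.2))
    (n : NN N)
    (h : ∀ ε : NN N → R, Intl N ε → (∀ i, ε i = 1 ∨ ε i = -1) → ∃ ψ : Dual N K E,
      nm ψ ≤ 1 ∧ ∀ i, i < n → nm (ψ (x i) - algebraMap R K (δ * ε i)) ≤ δ / 16) :
    ∃ f : NN N → Dual N K E, Intl N f ∧ (∀ k, n ≤ k → f k = 0) ∧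
      (∀ y, isum (fun k => nm (f k y) ^ 2) n ≤ nm y ^ 2) ∧ ∀ i, i < n →
        0 ≤ isum (fun k => q i k * KA.re (f k (x i))) n ∧
        (c * δ) ^ 2 * isum (fun k => q i k ^ 2) n ≤
          isum (fun k => q i k * KA.re (f k (x i))) n ^ 2 ∧
        isum (fun k => KA.im (f k (x i)) ^ 2) n ≤ (δ / 16) ^ 2 := by
  obtain ⟨f, h1, h2, h3, h4⟩ := signs_core (N := N) (R := R) (K := K)
    (fun (u : Dual N K E) (y : E) => u y) (by fun_prop) (fun _ _ _ => rfl) (fun _ _ _ => rfl)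
    (s := fun y : E => nm y) (by fun_prop) hδ hx hq n fun ε hε hε' => by
      obtain ⟨ψ, k1, k2⟩ := h ε hε hε'
      exact ⟨ψ, fun y => (ψ.le_opNorm y).trans (mul_le_of_le_one_left (nm_nonneg y) k1), k2⟩
  refine ⟨f, h1, h2, h3, fun i hi => ⟨(h4 i hi).1, le_trans ?_ (h4 i hi).2.1, (h4 i hi).2.2⟩⟩
  exact mul_le_mul_of_nonneg_right
    (pow_le_pow_left₀ (mul_nonneg hc0 hδ.le) (mul_le_mul_of_nonneg_right hc hδ.le) 2)
    (isum_nonneg (by fun_prop) fun _ _ => sq_nonneg _)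

end Vale.Agent.P129B
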