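import Vale.Agent.P129BD.Bits
import Vale.Agent.P129B.Sum

/-!
# Averages over sign patterns: moments, the inequalities of Khinchine and Bessel
-/

namespace Vale.Agent.P129B

universe v

variable {N : Type v} [ZM N]
variable {α : Type*} [Coded N α]
variable {R : Type*} [Field R] [LinearOrder R] [IsStrictOrderedRing R] [Coded N R] [Tot N R]
  [DefAdd N R] [DefMul N R] [DefLE N R]

attribute [local instance] defNeg_of_add defSub_of_neg defInv_of_mul defDiv_of_inv

theorem pw_eq_ipow (n : NN N) : pw n = ipow (2 : NN N) n :=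
  NN.ind (P := fun n => pw n = ipow (2 : NN N) n) (by fun_prop) (by simp)
    (fun n ih => by rw [pw_succ, ipow_succ, mul_two, ih]) n

/-- the mean value over the sign patterns of length `n` -/
noncomputable def av (n : NN N) (F : NN N → R) : R := (ipow (2 : R) n)⁻¹ * isum F (pw n)

/-- Rademacher sums -/
noncomputable def rs (b : NN N → R) (n w : NN N) : R := isum (fun k => b k * sgn R w k) n

omit [LinearOrder R] [IsStrictOrderedRing R] [DefLE N R] in
@[fun_prop] theorem DefF.av {n : α → NN N} {F : α → NN N → R} (hn : DefF N n)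
    (hF : DefF N (fun p : α × NN N => F p.1 p.2)) : DefF N (fun a => av (n a) (F a)) := by
  unfold P129B.av
  fun_prop

omit [LinearOrder R] [IsStrictOrderedRing R] [DefLE N R] in
@[fun_prop] theorem DefF.rs {b : α → NN N → R} {n w : α → NN N}
    (hb : DefF N (fun p : α × NN N => b p.1 p.2)) (hn : DefF N n) (hw : DefF N w) :
    DefF N (fun a => rs (b a) (n a) (w a)) := by
  unfold P129B.rs
  fun_prop

omit [DefAdd N R] in
theorem two_ipow_pos (n : NN N) : 0 < ipow (2 : R) n :=
  NN.ind (P := fun n => ¬ ipow (2 : R) n ≤ 0) (by fun_prop) (by simp)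
    (fun n ih => by rw [ipow_succ]; exact not_le.2 (mul_pos (not_le.1 ih) two_pos)) n |> not_le.1

section Av

variable {F G : NN N → R} {n : NN N}

omit [LinearOrder R] [IsStrictOrderedRing R] [DefLE N R] [DefMul N R] in
theorem av_zero (hF : DefF N F) : av 0 F = F 0 := by simp [av, isum_one hF]

omit [DefLE N R] in
theorem av_succ (hF : DefF N F) (n : NN N) :
    av (n + 1) F = (av n F + av n (fun w => F (pw n + w))) / 2 := by
  simp only [av]
  rw [pw_succ, isum_add_range hF, ipow_succ, mul_inv]
  ring

omit [LinearOrder R] [IsStrictOrderedRing R] [DefLE N R] [DefMul N R] in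
theorem av_congr (hF : DefF N F) (hG : DefF N G) (h : ∀ w, w < pw n → F w = G w) :
    av n F = av n G := by
  simp only [av]
  rw [isum_congr hF hG h]

omit [DefLE N R] in
theorem av_const (c : R) (n : NN N) : av n (fun _ => c) = c :=
  NN.ind (P := fun n => av n (fun _ => c) = c) (by fun_prop) (av_zero (by fun_prop))
    (fun n ih => by rw [av_succ (by fun_prop), ih]; ring) n

omit [LinearOrder R] [IsStrictOrderedRing R] [DefLE N R] [DefMul N R] in
theorem av_add (hF : DefF N F) (hG : DefF N G) (n : NN N) :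
    av n (fun w => F w + G w) = av n F + av n G := by
  simp only [av]
  rw [isum_add hF hG, mul_add]

omit [LinearOrder R] [IsStrictOrderedRing R] [DefLE N R] [DefMul N R] in
theorem av_sub (hF : DefF N F) (hG : DefF N G) (n : NN N) :
    av n (fun w => F w - G w) = av n F - av n G := by
  simp only [av]
  rw [isum_sub hF hG, mul_sub]

omit [LinearOrder R] [IsStrictOrderedRing R] [DefLE N R] in
theorem av_mul (c : R) (hF : DefF N F) (n : NN N) : av n (fun w => c * F w) = c * av n F := by
  simp only [av]
  rw [← mul_isum c hF]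
  ring

theorem av_le_av (hF : DefF N F) (hG : DefF N G) (h : ∀ w, w < pw n → F w ≤ G w) :
    av n F ≤ av n G :=
  mul_le_mul_of_nonneg_left (isum_le_isum hF hG h) (inv_nonneg.2 (two_ipow_pos n).le)

theorem av_nonneg (hF : DefF N F) (h : ∀ w, w < pw n → 0 ≤ F w) : 0 ≤ av n F :=
  mul_nonneg (inv_nonneg.2 (two_ipow_pos n).le) (isum_nonneg hF h)

theorem av_le (hF : DefF N F) {c : R} (h : ∀ w, w < pw n → F w ≤ c) : av n F ≤ c :=
  (av_le_av hF (by fun_prop) h).trans_eq (av_const c n)

omit [LinearOrder R] [IsStrictOrderedRing R] [DefLE N R] in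
theorem av_isum {H : NN N → NN N → R} (hH : DefF N (fun p : NN N × NN N => H p.1 p.2))
    (n m : NN N) : av n (fun w => isum (fun k => H w k) m) =
      isum (fun k => av n (fun w => H w k)) m := by
  simp only [av]
  rw [isum_comm hH, mul_isum _ (by fun_prop)]

end Av

section Rs

variable {b : NN N → R}

omit [LinearOrder R] [IsStrictOrderedRing R] [DefLE N R] in
theorem rs_succ_lo (hb : DefF N b) {n w : NN N} (h : w < pw n) :
    rs b (n + 1) w = rs b n w + b n := by
  simp only [rs]
  rw [isum_succ (by fun_prop), sgn_of_lt h, mul_one]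

omit [LinearOrder R] [IsStrictOrderedRing R] [DefLE N R] in
theorem rs_succ_hi (hb : DefF N b) {n w : NN N} (h : w < pw n) :
    rs b (n + 1) (pw n + w) = rs b n w - b n := by
  simp only [rs]
  rw [isum_succ (by fun_prop), sgn_pw_add h, mul_neg, mul_one, ← sub_eq_add_neg]
  congr 1
  exact isum_congr (by fun_prop) (by fun_prop) fun k hk => by rw [sgn_pw_add_of_lt hk]

omit [DefLE N R] in
theorem av_rs_succ (hb : DefF N b) {G : R → R} (hG : DefF N G) (n : NN N) :
    av (n + 1) (fun w => G (rs b (n + 1) w)) =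
      (av n (fun w => G (rs b n w + b n)) + av n (fun w => G (rs b n w - b n))) / 2 := by
  rw [av_succ (by fun_prop)]
  congr 2
  · exact av_congr (by fun_prop) (by fun_prop) fun w hw => by rw [rs_succ_lo hb hw]
  · exact av_congr (by fun_prop) (by fun_prop) fun w hw => by rw [rs_succ_hi hb hw]

omit [DefLE N R] in
/-- the second moment -/
theorem av_rs_sq (hb : DefF N b) (n : NN N) :
    av n (fun w => rs b n w ^ 2) = isum (fun k => b k ^ 2) n := by
  refine NN.ind (P := fun n => av n (fun w => rs b n w ^ 2) = isum (fun k => b k ^ 2) n)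
    (by fun_prop) (by rw [av_zero (by fun_prop)]; simp [rs]) (fun n ih => ?_) n
  rw [av_rs_succ hb (G := fun x => x ^ 2) (by fun_prop), isum_succ (by fun_prop),
    ← av_add (by fun_prop) (by fun_prop), ← ih,
    av_congr (G := fun w => 2 * rs b n w ^ 2 + 2 * b n ^ 2) (by fun_prop) (by fun_prop)
      (fun w _ => by ring), av_add (by fun_prop) (by fun_prop), av_mul _ (by fun_prop), av_const]
  ring

/-- the fourth moment -/
theorem av_rs_four (hb : DefF N b) (n : NN N) :
    av n (fun w => rs b n w ^ 4) ≤ 3 * isum (fun k => b k ^ 2) n ^ 2 := by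
  refine NN.ind (P := fun n => av n (fun w => rs b n w ^ 4) ≤ 3 * isum (fun k => b k ^ 2) n ^ 2)
    (by fun_prop) (by rw [av_zero (by fun_prop)]; simp [rs]) (fun n ih => ?_) n
  rw [av_rs_succ hb (G := fun x => x ^ 4) (by fun_prop), isum_succ (by fun_prop),
    ← av_add (by fun_prop) (by fun_prop),
    av_congr (G := fun w => 2 * rs b n w ^ 4 + (12 * b n ^ 2) * rs b n w ^ 2 + 2 * b n ^ 4)
      (by fun_prop) (by fun_prop) (fun w _ => by ring), av_add (by fun_prop) (by fun_prop),
    av_add (by fun_prop) (by fun_prop), av_mul _ (by fun_prop), av_mul _ (by fun_prop), av_const,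
    av_rs_sq hb]
  have : 0 ≤ b n ^ 4 := by positivity
  nlinarith

/-- a nonnegative quadratic polynomial -/
theorem sq_le_of_quad {R : Type*} [Field R] [LinearOrder R] [IsStrictOrderedRing R] {A B C : R}
    (h : ∀ t, 0 ≤ C - 2 * t * B + t ^ 2 * A) : B ^ 2 ≤ A * C := by
  have := discrim_le_zero (a := A) (b := -2 * B) (c := C) fun t => by
    have := h t
    linarith
  rw [discrim] at this
  linarith

theorem av_quad {F G : NN N → R} (hF : DefF N F) (hG : DefF N G) {n : NN N}
    (h : ∀ w, 0 ≤ F w) :
    av n (fun w => F w * G w) ^ 2 ≤ av n F * av n (fun w => F w * G w ^ 2) := by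
  refine sq_le_of_quad fun t => ?_
  have h1 := av_nonneg (n := n) (F := fun w => F w * (G w - t) ^ 2) (by fun_prop)
    fun w _ => mul_nonneg (h w) (sq_nonneg _)
  rwa [av_congr (G := fun w => F w * G w ^ 2 - (2 * t) * (F w * G w) + t ^ 2 * F w)
    (by fun_prop) (by fun_prop) (fun w _ => by ring), av_add (by fun_prop) (by fun_prop),
    av_sub (by fun_prop) (by fun_prop), av_mul _ (by fun_prop), av_mul _ hF] at h1

/-- **Khinchine's inequality.** -/
theorem khinchine (hb : DefF N b) (n : NN N) :
    isum (fun k => b k ^ 2) n ≤ 3 * av n (fun w => |rs b n w|) ^ 2 := by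
  have h1 := av_quad (n := n) (F := fun w => |rs b n w|) (G := fun w => |rs b n w|) (by fun_prop)
    (by fun_prop) fun w => abs_nonneg _
  have h2 := av_quad (n := n) (F := fun w => rs b n w ^ 2) (G := fun w => |rs b n w|)
    (by fun_prop) (by fun_prop) fun w => sq_nonneg _
  have h4 := av_rs_four hb n
  have e1 : (fun w => |rs b n w| * |rs b n w|) = fun w => rs b n w ^ 2 := by
    funext w; rw [abs_mul_abs_self, sq]
  have e2 : (fun w => |rs b n w| * |rs b n w| ^ 2) = fun w => rs b n w ^ 2 * |rs b n w| := by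
    funext w; rw [sq_abs, mul_comm]
  have e3 : (fun w => rs b n w ^ 2 * |rs b n w| ^ 2) = fun w => rs b n w ^ 4 := by
    funext w; rw [sq_abs]; ring
  rw [e1, e2, av_rs_sq hb] at h1
  rw [e3, av_rs_sq hb] at h2
  have h0 : 0 ≤ isum (fun k => b k ^ 2) n := isum_nonneg (by fun_prop) fun k _ => sq_nonneg _
  generalize isum (fun k => b k ^ 2) n = S at *
  generalize av n (fun w => |rs b n w|) = A at *
  generalize av n (fun w => rs b n w ^ 2 * |rs b n w|) = B at *
  generalize av n (fun w => rs b n w ^ 4) = C at *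
  rcases h0.eq_or_lt with rfl | h0
  · positivity
  · have h5 : (S ^ 2) ^ 2 ≤ (A * B) ^ 2 := pow_le_pow_left₀ (by positivity) h1 2
    have h6 : B ^ 2 ≤ S * (3 * S ^ 2) := h2.trans (mul_le_mul_of_nonneg_left h4 h0.le)
    have h7 := mul_le_mul_of_nonneg_left h6 (sq_nonneg A)
    refine le_of_mul_le_mul_left (a := S ^ 3) ?_ (by positivity)
    nlinarith

omit [LinearOrder R] [IsStrictOrderedRing R] [DefLE N R] in
theorem av_rs_mul (hb : DefF N b) {G : NN N → R} (hG : DefF N G) (n : NN N) :
    av n (fun w => rs b n w * G w) = isum (fun k => b k * av n (fun w => sgn R w k * G w)) n := by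
  rw [av_congr (G := fun w => isum (fun k => b k * (sgn R w k * G w)) n) (by fun_prop)
    (by fun_prop) (fun w _ => by
      rw [rs, isum_mul _ (by fun_prop)]
      simp only [mul_assoc]), av_isum (by fun_prop)]
  exact isum_congr (by fun_prop) (by fun_prop) fun k _ => av_mul _ (by fun_prop) n

/-- **Bessel's inequality.** -/
theorem bessel {G : NN N → R} (hG : DefF N G) (n : NN N) :
    isum (fun k => av n (fun w => sgn R w k * G w) ^ 2) n ≤ av n (fun w => G w ^ 2) := by
  set c : NN N → R := fun k => av n (fun w => sgn R w k * G w) with hc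
  have hc' : DefF N c := by rw [hc]; fun_prop
  have h1 := av_nonneg (n := n) (F := fun w => (G w - rs c n w) ^ 2) (by fun_prop)
    fun w _ => sq_nonneg _
  rw [av_congr (G := fun w => G w ^ 2 - 2 * (rs c n w * G w) + rs c n w ^ 2)
    (by fun_prop) (by fun_prop) (fun w _ => by ring), av_add (by fun_prop) (by fun_prop),
    av_sub (by fun_prop) (by fun_prop), av_mul _ (by fun_prop), av_rs_sq hc',
    av_rs_mul hc' hG] at h1
  have e : (fun k => c k * av n (fun w => sgn R w k * G w)) = fun k => c k ^ 2 := by
    funext k; rw [sq]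
  rw [e] at h1
  show isum (fun k => c k ^ 2) n ≤ _
  linarith

end Rs

end Vale.Agent.P129B
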