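import Vale.Agent.P129BD.Dl
import Vale.Agent.P129BM.Spec

/-!
# The row `SIGNS`
-/

namespace Vale.Agent.P129B

universe v

variable {N : Type v} [ZM N]
  {R : Type*} [Field R] [LinearOrder R] [IsStrictOrderedRing R] [Coded N R] [RF N R]
  {K : Type*} [Field K] [Algebra R K] [Nm K R] [KA R K] [Coded N K] [KF N R K]
  {E : Type*} [AddCommGroup E] [Module K E] [Nm E R] [NA R K E] [Coded N E] [NS N R K E]

theorem signs : SIGNS N R K E := fun _ x q n hδ _ _ h =>
  signs_dual (by norm_num) (by norm_num) hδ (DefF.ofIntl x) (DefF.ofIntl2 q) n h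

end Vale.Agent.P129B
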